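/-
helper74 — S0359 (row 232, Track D1): package E of helper64's blueprint — the grid family.
`grid_disjoint`, `grid_nonneg`, `grid_meet`, `fam_injective`, with the signatures of
`Crest/Agent/Helper64/S0359/Blueprint.lean`.
-/
import Crest.Agent.Helper64.S0359.Defs

set_option autoImplicit false

namespace Crest.Agent.Helper74.S0359

open Crest.Agent.Helper64.S0359

/-- E1: two different rows (or two different columns) have disjoint supports. -/
theorem grid_disjoint (k : ℕ) (c : Bool) (i i' : Fin k) (h : i ≠ i') (a : Fin k × Fin k) :
    grid k c i a = 0 ∨ grid k c i' a = 0 := by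
  unfold grid
  by_cases h1 : (cond c a.2 a.1) = i
  · right
    have h2 : ¬ (cond c a.2 a.1) = i' := fun h2 => h (h1.symm.trans h2)
    simp [h2]
  · left
    simp [h1]

/-- E2: the indicators are nonnegative. -/
theorem grid_nonneg (k : ℕ) (c : Bool) (i : Fin k) (a : Fin k × Fin k) : 0 ≤ grid k c i a := by
  unfold grid
  split <;> norm_num

/-- E3: every row meets every column. -/
theorem grid_meet (k : ℕ) (i j : Fin k) :
    ∃ a, 0 < grid k false i a ∧ 0 < grid k true j a := by
  refine ⟨(i, j), ?_, ?_⟩ <;> simp [grid]

theorem grid_self (k : ℕ) (c : Bool) (i : Fin k) (a : Fin k × Fin k)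
    (h : (cond c a.2 a.1) = i) : grid k c i a = 1 := by
  unfold grid
  simp [h]

theorem grid_other (k : ℕ) (c : Bool) (i : Fin k) (a : Fin k × Fin k)
    (h : ¬ (cond c a.2 a.1) = i) : grid k c i a = 0 := by
  unfold grid
  simp [h]

/-- Values of a special point lie in `{-1, 0, 1}`. -/
theorem special_mem (k : ℕ) (x : Bool × Bool × Fin k) (a : Fin k × Fin k) :
    special k x a = -1 ∨ special k x a = 0 ∨ special k x a = 1 := by
  obtain ⟨c, s, i⟩ := x
  by_cases h : (cond c a.2 a.1) = i
  · cases s
    · right; right
      simp [special, grid_self k c i a h]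
    · left
      simp [special, grid_self k c i a h]
  · right; left
    cases s <;> simp [special, grid_other k c i a h]

theorem special_apply (k : ℕ) (c s : Bool) (i : Fin k) (a : Fin k × Fin k) :
    special k (c, s, i) a = (cond s (-1 : ℝ) 1) * grid k c i a := by
  cases s <;> simp [special]

/-- The special points are pairwise distinct (`k ≥ 2`). -/
theorem special_injective (k : ℕ) (hk : 2 ≤ k) : Function.Injective (special k) := by
  have h0 : 0 < k := by omega
  -- two distinct indices
  have hne : ∀ i : Fin k, ∃ i' : Fin k, i' ≠ i := by
    intro i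
    by_cases hi : i.val = 0
    · exact ⟨⟨1, by omega⟩, fun h => by rw [← h] at hi; simp at hi⟩
    · exact ⟨⟨0, h0⟩, fun h => hi (by rw [← h])⟩
  rintro ⟨c, s, i⟩ ⟨c', s', i'⟩ h
  -- evaluation at a point
  have hev : ∀ a : Fin k × Fin k,
      (cond s (-1 : ℝ) 1) * grid k c i a = (cond s' (-1 : ℝ) 1) * grid k c' i' a := by
    intro a
    rw [← special_apply, ← special_apply, h]
  have hs0 : ∀ t : Bool, (cond t (-1 : ℝ) 1) ≠ 0 := by
    intro t; cases t <;> norm_num
  -- first: the orientation agrees
  have hc : c = c' := by
    by_contra hcc
    obtain ⟨i2, hi2⟩ := hne i'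
    -- choose a point in line `(c, i)` but outside line `(c', i')`
    cases c with
    | false =>
      have hc' : c' = true := by cases c' <;> simp_all
      subst hc'
      have := hev (i, i2)
      rw [grid_self k false i (i, i2) rfl, grid_other k true i' (i, i2) (by simpa using hi2)] at this
      simp at this
      exact hs0 s this
    | true =>
      have hc' : c' = false := by cases c' <;> simp_all
      subst hc'
      have := hev (i2, i)
      rw [grid_self k true i (i2, i) rfl, grid_other k false i' (i2, i) (by simpa using hi2)] at this
      simp at this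
      exact hs0 s this
  subst hc
  -- second: the index agrees
  have hi : i = i' := by
    by_contra hii
    cases c with
    | false =>
      have := hev (i, i)
      rw [grid_self k false i (i, i) rfl, grid_other k false i' (i, i) (by simpa using hii)] at this
      simp at this
      exact hs0 s this
    | true =>
      have := hev (i, i)
      rw [grid_self k true i (i, i) rfl, grid_other k true i' (i, i) (by simpa using hii)] at this
      simp at this
      exact hs0 s this
  subst hi
  -- third: the sign agrees
  have hs : s = s' := by
    have := hev (i, i)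
    have hg : grid k c i (i, i) = 1 := grid_self k c i (i, i) (by cases c <;> rfl)
    rw [hg, mul_one, mul_one] at this
    cases s <;> cases s' <;> first | rfl | (norm_num at this)
  subst hs
  rfl

/-- The padding points are pairwise distinct (`k ≥ 1`). -/
theorem pad_injective (k : ℕ) (hk : 0 < k) : Function.Injective (pad k) := by
  intro m m' h
  have := congrFun h (⟨0, hk⟩, ⟨0, hk⟩)
  simp only [pad] at this
  have h2 : (m : ℝ) = (m' : ℝ) := by linarith
  exact_mod_cast h2

/-- A special point is not a padding point (`k ≥ 2`): a special point takes the value `0`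
somewhere and a nonzero value somewhere, a padding point is constant. -/
theorem special_ne_pad (k : ℕ) (hk : 2 ≤ k) (x : Bool × Bool × Fin k) (m : ℕ) :
    special k x ≠ pad k m := by
  obtain ⟨c, s, i⟩ := x
  have h0 : 0 < k := by omega
  obtain ⟨i2, hi2⟩ : ∃ i2 : Fin k, i2 ≠ i := by
    by_cases hi : i.val = 0
    · exact ⟨⟨1, by omega⟩, fun h => by rw [← h] at hi; simp at hi⟩
    · exact ⟨⟨0, h0⟩, fun h => hi (by rw [← h])⟩
  intro h
  have h1 := congrFun h (i, i)
  have h2 := congrFun h (i2, i2)
  rw [special_apply, grid_self k c i (i, i) (by cases c <;> rfl)] at h1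
  rw [special_apply, grid_other k c i (i2, i2) (by cases c <;> simpa using hi2)] at h2
  simp only [pad, mul_one, mul_zero] at h1 h2
  have hm : (m : ℝ) = 0 := by linarith
  rw [hm] at h1
  cases s <;> norm_num at h1

/-- E4: the source points are pairwise distinct. -/
theorem fam_injective (k r : ℕ) (hk : 2 ≤ k) : Function.Injective (fam k r) := by
  have h0 : 0 < k := by omega
  rintro (x | m) (x' | m') h
  · exact congrArg Sum.inl (special_injective k hk h)
  · exact absurd h (special_ne_pad k hk x m')
  · exact absurd h.symm (special_ne_pad k hk x' m)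
  · have h2 : pad k (m : ℕ) = pad k (m' : ℕ) := h
    exact congrArg Sum.inr (Fin.ext (pad_injective k h0 h2))

end Crest.Agent.Helper74.S0359
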